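import Vale.Agent.P365.T2.H937.QPart
import Vale.Agent.P365.T2.H963.XFin

/-!
# P365-T2: the third hypothesis of 963's `xthm_of_parts` is a theorem (helper937)
-/

set_option linter.all false

namespace P365T2.H937

open P365T2.H784 P365T2.H912 P365T2.H963

/-- **`QPart` for 963's `FBn`** -/
theorem qPartX (lam E C1 : ℝ) (gf : ℝ → ℝ) (hlam : 0 < lam) (_hE : |E| < 4 + lam)
    (hC1 : 0 < C1) (hgf : ∀ ρ, 1 ≤ gf ρ) : QPart Q0 lam E C1 gf (FBn E C1) :=
  qPart hlam hC1 hgf

end P365T2.H937
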