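import Vale.Agent.P365.T2.H784.Lip
import Vale.Agent.P365.T2.H912.XThm

/-!
# P365-T2: the count functional `Bn` (helper937; 179's (R3), 784's `Csc`, 629's `nJ`)
-/

set_option linter.all false

namespace P365T2.H937

open P365L P365O P365T1 P365L.TL P365T2.H213 P365T2.H784 P365T2.H912 P365T2.X629

/-- dissipation of all the dyadic scales `2 ^ s`, `s ≤ 2 nJ + 4`, at level `g`, per site -/
noncomputable def BnX (E C1 g : ℝ) : Fn := fun N _ W τ =>
  (∑ s ∈ Finset.range (2 * nJ C1 W.S + 5), Csc W E g (2 ^ s) τ) / (N : ℝ) ^ 2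

theorem BnX_nonneg {N : ℕ} [NeZero N] {W : StW N} {lam E C1 η C g : ℝ} (hW : W.Ok lam E C1 η)
    (hg : 0 < g) (τ : ℝ) : 0 ≤ BnX E C g N W τ :=
  div_nonneg (Finset.sum_nonneg fun s _ => Csc_nonneg hW hg _ τ) (sq_nonneg _)

end P365T2.H937
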