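import Vale.Agent.P365.T2.H784.Mono
import Vale.Agent.P365.T2.H79.Flow
import Vale.Agent.P365.T2.SmL755
import Vale.Agent.P365.T2.H937.BnDef

/-!
# P365-T2, row X-CNTDQ: the `Q` part of the flow record (helper937)

Sum over the blocks and the scales of 79's one-block flow `flow_Th`, over 213's `StW.Ok`, 784's
`Q0` and `Csc`; conclusion = 912's `QPart`, for every count functional `Bn` dominated by the
normalised sum of `Csc` over a finite set of at most `KS * S` scales `ρ`, `12 ρ < N`.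
-/

set_option linter.all false

namespace P365T2.H937

open P365L P365O P365T1 P365L.TL P365T1.Conc Matrix Complex MeasureTheory Filter Topology Set
open Vale.Agent.P365.J376 P365T2.H213 P365T2.H211 P365T2.H784 P365T2.H79 P365T2.H912
open P365T2.X629

section gen

variable {ι : Type*} [Fintype ι] [DecidableEq ι] {A : Matrix ι ι ℝ}
  {Λ : Type*} [Fintype Λ] {p : Λ → ℝ} {ν : Λ → Measure ℝ} {E : ℝ} {κ : Type*} [Fintype κ]

theorem YT_eq (hA : A.IsSymm) [∀ k, IsProbabilityMeasure (ν k)] (f : κ → ι → ℝ)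
    {e : (ι → Λ) → ι → ℝ} (he : ∀ l x, 0 < e l x) (w : (ι → Λ) → ι → ℝ) :
    YT A p ν E f e w = 4 * YG A p ν E f e w + YG A p ν E (fun k y => f k y ^ 2) e w := by
  unfold YT AvG YG
  rw [Finset.mul_sum, ← Finset.sum_add_distrib]
  refine Finset.sum_congr rfl fun l _ => ?_
  have h1 : Ex (fun x => ν (l x)) E (e l) (fun W => ∑ x, w l x * YB A W f x) =
      ∑ x, w l x * ∑ k, (4 * Ex (fun x => ν (l x)) E (e l) (fun W => Yf A W (f k) x) +
        Ex (fun x => ν (l x)) E (e l) (fun W => Yf A W (fun y => f k y ^ 2) x)) := by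
    unfold Ex
    have hi : ∀ x k, Integrable (fun v => 4 * Yf A (WV E (e l) v) (f k) x +
        Yf A (WV E (e l) v) (fun y => f k y ^ 2) x) (Measure.pi fun x => ν (l x)) := fun x k =>
      ((integrable_Yf hA _ E (he l) (f k) x).const_mul 4).add
        (integrable_Yf hA _ E (he l) (fun y => f k y ^ 2) x)
    rw [integral_finset_sum]
    · refine Finset.sum_congr rfl fun x _ => ?_
      rw [integral_const_mul]
      congr 1
      unfold YB
      rw [integral_finset_sum _ fun k _ => hi x k]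
      refine Finset.sum_congr rfl fun k _ => ?_
      rw [integral_add ((integrable_Yf hA _ E (he l) (f k) x).const_mul 4)
        (integrable_Yf hA _ E (he l) (fun y => f k y ^ 2) x), integral_const_mul]
    · intro x _
      refine Integrable.const_mul ?_ _
      unfold YB
      exact integrable_finset_sum _ fun k _ => hi x k
  rw [h1, mul_left_comm, ← mul_add]
  congr 1
  rw [Finset.mul_sum, ← Finset.sum_add_distrib]
  refine Finset.sum_congr rfl fun x _ => ?_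
  rw [Finset.sum_add_distrib, ← Finset.mul_sum]
  ring

theorem YG_fam {β : Type*} [Fintype β] (f : β × κ → ι → ℝ) (e w : (ι → Λ) → ι → ℝ) :
    ∑ b, YG A p ν E (fun k => f (b, k)) e w = YG A p ν E f e w := by
  unfold YG
  rw [Finset.sum_comm]
  refine Finset.sum_congr rfl fun l _ => ?_
  rw [← Finset.mul_sum, Finset.sum_comm]
  congr 1
  refine Finset.sum_congr rfl fun x _ => ?_
  rw [← Finset.mul_sum, Fintype.sum_prod_type]

theorem DT_eq {f : κ → ι → ℝ} {T : ℝ} (hT : 0 < T) (e w : (ι → Λ) → ι → ℝ) :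
    H79.DT A p ν E f T e w = T * AvG p ν E e fun l W => min (PhB A W f) T / T *
      ∑ x, w l x * lsB A W f x := by
  unfold H79.DT AvG Ex
  rw [Finset.mul_sum]
  refine Finset.sum_congr rfl fun l _ => ?_
  rw [mul_left_comm]
  congr 1
  rw [← integral_const_mul]
  refine integral_congr_ae (Eventually.of_forall fun v => ?_)
  show ∑ x, w l x * (min (PhB A (WV E (e l) v) f) T * lsB A (WV E (e l) v) f x) =
    T * (min (PhB A (WV E (e l) v) f) T / T * ∑ x, w l x * lsB A (WV E (e l) v) f x)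
  rw [← mul_assoc, mul_div_cancel₀ _ hT.ne', Finset.mul_sum]
  exact Finset.sum_congr rfl fun x _ => by ring

theorem CN_le {L R c2 T : ℝ} (hR : 0 ≤ R) (hc2 : 0 ≤ c2) (hT : 1 ≤ T) :
    CN κ E L R c2 T ≤ T * CN κ E L R c2 1 := by
  have hT0 : 0 < T := by linarith
  have hC := CT_nonneg κ
  obtain ⟨K, hK⟩ : ∃ K, 320 * (Fintype.card κ : ℝ) = K := ⟨_, rfl⟩
  have hK0 : 0 ≤ K := by rw [← hK]; positivity
  obtain ⟨X, hX⟩ : ∃ X, R * (2 * L + 1) ^ 2 * Real.pi = X := ⟨_, rfl⟩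
  have hX0 : 0 ≤ X := by
    rw [← hX]
    have := Real.pi_pos
    positivity
  unfold CN
  rw [← mul_assoc T]
  refine mul_le_mul_of_nonneg_right ?_ (show (0 : ℝ) ≤ 20 * (1 + E ^ 2) by positivity)
  unfold CL
  rw [hK, hX]
  have h1 : 3 / T ≤ 3 := by
    rw [div_le_iff₀ hT0]
    linarith
  have h2 : (T + CT κ + 3 / 2 * K * 2) * c2 ≤ T * ((1 + CT κ + 3 / 2 * K * 2) * c2) := by
    rw [← mul_assoc]
    refine mul_le_mul_of_nonneg_right ?_ hc2
    nlinarith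
  have h3 : (2 + 3 / 2 * K * (3 / T)) * K * X ≤ T * ((2 + 3 / 2 * K * (3 / 1)) * K * X) := by
    have h4 : (2 + 3 / 2 * K * (3 / T)) * K * X ≤ (2 + 3 / 2 * K * 3) * K * X := by
      have : 3 / 2 * K * (3 / T) ≤ 3 / 2 * K * 3 := mul_le_mul_of_nonneg_left h1 (by positivity)
      refine mul_le_mul_of_nonneg_right (mul_le_mul_of_nonneg_right (by linarith) hK0) hX0
    have h5 : 0 ≤ (2 + 3 / 2 * K * 3) * K * X := by positivity
    rw [div_one]
    nlinarith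
  rw [mul_add]
  exact add_le_add h2 h3

theorem CN_nonneg {L R c2 T : ℝ} (hR : 0 ≤ R) (hc2 : 0 ≤ c2) (hT : 0 < T) :
    0 ≤ CN κ E L R c2 T := by
  have hC := CT_nonneg κ
  unfold CN
  refine mul_nonneg (CL_nonneg hR hc2 (by linarith) (by norm_num) (by positivity)
    (by positivity)) (by positivity)

theorem QT_eq (hA : A.IsSymm) [∀ k, IsProbabilityMeasure (ν k)] (f : κ → ι → ℝ) {T : ℝ}
    (hT : 0 < T) {e : (ι → Λ) → ι → ℝ} (he : ∀ l x, 0 < e l x) :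
    QT A p ν E f T e = T * AvG p ν E e (fun _ V => psi T (PhB A V f)) +
      CT κ * AvG p ν E e (fun _ V => PhB A V f) := by
  unfold QT AvG Ex Th
  rw [Finset.mul_sum, Finset.mul_sum, ← Finset.sum_add_distrib]
  refine Finset.sum_congr rfl fun l _ => ?_
  rw [integral_add ((integrable_psi_PhB hA _ E (he l) f hT).const_mul T)
    ((integrable_PhB hA _ E (he l) f).const_mul _), integral_const_mul, integral_const_mul]
  ring

end gen

section stage

variable {N : ℕ} [NeZero N] {W : StW N} {E lam C1 η : ℝ}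

/-- the functional of one scale -/
noncomputable def Qr (W : StW N) (E A : ℝ) (ρ : ℕ) (τ : ℝ) : ℝ :=
  ∑ z : Tor N, QT (AT N) W.p W.ν E (fB z ρ) A (eT W.u W.w τ)

theorem Qr_nonneg (hW : W.Ok lam E C1 η) {A : ℝ} (hA : 0 < A) (ρ : ℕ) (τ : ℝ) :
    0 ≤ Qr W E A ρ τ :=
  Finset.sum_nonneg fun z _ => QT_nonneg hW.p_nonneg hA (eT_pos' hW τ)

theorem Qr_eq (hW : W.Ok lam E C1 η) {A : ℝ} (hA : 0 < A) (ρ : ℕ) (τ : ℝ) :
    Qr W E A ρ τ = A * Qsc W E A ρ τ + CT (Fin 3) * Esc W E ρ τ := by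
  haveI := hW.prob
  unfold Qr Qsc Esc StW.Av
  rw [Finset.mul_sum, Finset.mul_sum, ← Finset.sum_add_distrib]
  exact Finset.sum_congr rfl fun z _ => QT_eq AT_symm' _ hA (eT_pos' hW τ)

/-- **the flow of one scale** -/
theorem flow_Qr (hW : W.Ok lam E C1 η) (hη : 0 ≤ η) (hC1 : 0 ≤ C1) {L R c2 : ℝ} (hL : 0 ≤ L)
    (hR : 0 ≤ R) (hsm : SmL (nuS lam (lam * tau0 / 2)) L R)
    (hc2 : C2 (nuS lam (lam * tau0 / 2)) c2) {A : ℝ} (hA : 1 ≤ A) {ρ : ℕ} (hρ : 0 < ρ) (hS : 0 < W.S)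
    (τ : ℝ) : ∃ d, HasDerivAt (Qr W E A ρ) d τ ∧ (τ ∈ Icc 0 W.S →
      d ≤ -(3 / 4 * (A * Csc W E A ρ τ)) +
        A * CN (Fin 3) E L R c2 1 * (200 * (C1 + 1) * (η / W.S ^ 8) * (N : ℝ) ^ 2)) := by
  haveI := hW.prob
  have hA0 : 0 < A := by linarith
  obtain ⟨b, hb, hbu⟩ := hW.u_pos
  have hu : ∀ l x, 0 < W.u l x := fun l x => hb.trans_le (hbu l x)
  have h1 := fun z : Tor N => flow_Th (A := AT N) (p := W.p) (ν := W.ν) (E := E) AT_symm'
    hW.p_nonneg hW.supp hu hW.w_nonneg hL hR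
    (fun l x hx => by rw [hW.mov l x hx]; exact ⟨hsm, hc2⟩)
    (f := fB z ρ) (fun k x => abs_fB_le_one z ρ k x) hA0 τ
  choose d hd hd' using h1
  refine ⟨∑ z, d z, HasDerivAt.fun_sum fun z _ => hd z, fun hτ => ?_⟩
  have h2 : ∑ z, d z ≤ ∑ z : Tor N,
      (-(3 / 4 * H79.DT (AT N) W.p W.ν E (fB z ρ) A (eT W.u W.w τ) (wT W.w τ)) +
        CN (Fin 3) E L R c2 A *
          YT (AT N) W.p W.ν E (fB z ρ) (eT W.u W.w τ) (wT W.w τ)) :=
    Finset.sum_le_sum fun z _ => hd' z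
  have h3 : ∑ z : Tor N, H79.DT (AT N) W.p W.ν E (fB z ρ) A (eT W.u W.w τ) (wT W.w τ) =
      A * Csc W E A ρ τ := by
    unfold Csc StW.Av
    rw [Finset.mul_sum]
    exact Finset.sum_congr rfl fun z _ => DT_eq hA0 _ _
  have h4 : ∑ z : Tor N, YT (AT N) W.p W.ν E (fB z ρ) (eT W.u W.w τ) (wT W.w τ) =
      4 * W.Yg E (famB N ρ) τ + W.Yg E (famQ N ρ) τ := by
    unfold StW.Yg
    rw [← YG_fam (famB N ρ), ← YG_fam (famQ N ρ), Finset.mul_sum, ← Finset.sum_add_distrib]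
    exact Finset.sum_congr rfl fun z _ => YT_eq AT_symm' _ (eT_pos' hW τ) _
  rw [Finset.sum_add_distrib, Finset.sum_neg_distrib, ← Finset.mul_sum, ← Finset.mul_sum, h3,
    h4] at h2
  have h5 := YgB_le hW hη hρ hτ hC1 hS
  have h6 : 0 ≤ 200 * (C1 + 1) * (η / W.S ^ 8) * (N : ℝ) ^ 2 := by positivity
  have h7 := CN_le (κ := Fin 3) (E := E) (L := L) (R := R) (c2 := c2) hR hc2.nonneg hA
  have h8 := CN_nonneg (κ := Fin 3) (E := E) (L := L) (R := R) (c2 := c2) hR hc2.nonneg hA0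
  have h9 : CN (Fin 3) E L R c2 A * (4 * W.Yg E (famB N ρ) τ + W.Yg E (famQ N ρ) τ) ≤
      A * CN (Fin 3) E L R c2 1 * (200 * (C1 + 1) * (η / W.S ^ 8) * (N : ℝ) ^ 2) :=
    (mul_le_mul_of_nonneg_left h5 h8).trans (mul_le_mul_of_nonneg_right h7 h6)
  linarith

end stage

/-- **`QPart`** -/
theorem qPart_of {lam E C1 : ℝ} (hC1 : 0 ≤ C1) {gf : ℝ → ℝ}
    (hgf : ∀ e, 1 ≤ gf e) {Bn : ℝ → Fn} {L R c2 : ℝ}
    (hL : 0 ≤ L) (hR : 0 ≤ R) (hsm : SmL (nuS lam (lam * tau0 / 2)) L R)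
    (hc2 : C2 (nuS lam (lam * tau0 / 2)) c2) {Sc : ∀ (N : ℕ) [NeZero N], StW N → Finset ℕ}
    {KB KS η₁ : ℝ} (hKB : 0 ≤ KB) (hKS : 0 ≤ KS) (hη₁ : 0 < η₁)
    (hSc : ∀ (N : ℕ) [NeZero N] (W : StW N), W.Ok lam E C1 1 → W.Ok lam E C1 η₁ →
      (∀ ρ ∈ Sc N W, 0 < ρ ∧ 12 * ρ < N) ∧ ((Sc N W).card : ℝ) ≤ KS * W.S)
    (hBn : ∀ g : ℝ, 1 ≤ g → ∀ (N : ℕ) [NeZero N] (W : StW N), W.Ok lam E C1 1 →
      ∀ τ ∈ Icc 0 W.S, Bn g N W τ ≤ KB * ((∑ ρ ∈ Sc N W, Csc W E g ρ τ) / (N : ℝ) ^ 2)) :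
    QPart Q0 lam E C1 gf Bn := by
  have hCT := CT_nonneg (Fin 3)
  have hCN := CN_nonneg (κ := Fin 3) (E := E) (L := L) (R := R) (c2 := c2) (T := 1) hR
    hc2.nonneg one_pos
  obtain ⟨Y, hY⟩ : ∃ Y, 4 / 3 * KB * KS * CN (Fin 3) E L R c2 1 * (200 * (C1 + 1)) = Y :=
    ⟨_, rfl⟩
  have hY0 : 0 ≤ Y := by rw [← hY]; positivity
  refine ⟨4 / 3 * KB * KS * (1 + 200 * CT (Fin 3) * C1) + 1, 1, by positivity, zero_le_one,
    fun e he he1 => ?_⟩
  refine ⟨min (min 1 η₁) (min e (e / (Y + 1))), by positivity, fun η hη hηe N _ W hW1 hW hQ => ?_⟩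
  have hη1 : η ≤ η₁ := hηe.trans ((min_le_left _ _).trans (min_le_right _ _))
  have hηe1 : η ≤ e := hηe.trans ((min_le_right _ _).trans (min_le_left _ _))
  have hηY : η ≤ e / (Y + 1) := hηe.trans ((min_le_right _ _).trans (min_le_right _ _))
  obtain ⟨A, hA⟩ : ∃ A, max (gf e) (1 / e) = A := ⟨_, rfl⟩
  have hA1 : 1 ≤ A := by
    rw [← hA]
    exact (hgf e).trans (le_max_left _ _)
  have hAe : 1 ≤ e * A := by
    have h1 : 1 / e ≤ A := by
      rw [← hA]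
      exact le_max_right _ _
    rw [div_le_iff₀ he] at h1
    linarith
  have hA0 : 0 < A := by linarith
  have hS1 : 1 ≤ W.S := by
    have := hW1.S_ge
    rwa [div_one] at this
  have hS0 : 0 < W.S := by linarith
  have hNr : (0 : ℝ) < N := Nat.cast_pos.2 (Nat.pos_of_ne_zero (NeZero.ne N))
  have hN0 : (0 : ℝ) < (N : ℝ) ^ 2 := by positivity
  obtain ⟨hSp, hSk⟩ := hSc N W hW1 (Ok.mono hW hη hη1)
  have hcard : (0 : ℝ) ≤ (Sc N W).card := Nat.cast_nonneg _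
  -- the functional
  set c : ℝ := 4 / 3 * KB / (e * A * (N : ℝ) ^ 2) with hc
  have hc0 : 0 ≤ c := by rw [hc]; positivity
  have hfl := fun (ρ : ℕ) (hρ : ρ ∈ Sc N W) (τ : ℝ) =>
    flow_Qr hW hη.le hC1 hL hR hsm hc2 hA1 (hSp ρ hρ).1 hS0 τ
  have hder : ∀ τ, ∃ d, HasDerivAt (fun τ => c * ∑ ρ ∈ Sc N W, Qr W E A ρ τ) d τ ∧
      (τ ∈ Icc 0 W.S → d ≤ c * ∑ ρ ∈ Sc N W, (-(3 / 4 * (A * Csc W E A ρ τ)) +
        A * CN (Fin 3) E L R c2 1 * (200 * (C1 + 1) * (η / W.S ^ 8) * (N : ℝ) ^ 2))) := by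
    intro τ
    have h1 : ∀ ρ : ℕ, ∃ d, ρ ∈ Sc N W → HasDerivAt (Qr W E A ρ) d τ ∧ (τ ∈ Icc 0 W.S →
      d ≤ -(3 / 4 * (A * Csc W E A ρ τ)) +
        A * CN (Fin 3) E L R c2 1 * (200 * (C1 + 1) * (η / W.S ^ 8) * (N : ℝ) ^ 2)) := by
      intro ρ
      by_cases hρ : ρ ∈ Sc N W
      · obtain ⟨d, hd⟩ := hfl ρ hρ τ
        exact ⟨d, fun _ => hd⟩
      · exact ⟨0, fun h => absurd h hρ⟩
    choose d hd using h1
    refine ⟨c * ∑ ρ ∈ Sc N W, d ρ, (HasDerivAt.fun_sum fun ρ hρ => (hd ρ hρ).1).const_mul c,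
      fun hτ => mul_le_mul_of_nonneg_left (Finset.sum_le_sum fun ρ hρ => (hd ρ hρ).2 hτ) hc0⟩
  refine ⟨fun τ => c * ∑ ρ ∈ Sc N W, Qr W E A ρ τ, ?_, ?_, ?_⟩
  · -- start value
    have h1 : ∀ ρ ∈ Sc N W, Qr W E A ρ 0 ≤ (A * e + 200 * CT (Fin 3) * C1) * (N : ℝ) ^ 2 := by
      intro ρ hρ
      rw [Qr_eq hW hA0]
      have h2' := hQ e ⟨hηe1, he1⟩ ρ (hSp ρ hρ).1 (hSp ρ hρ).2
      have hAg : gf e ≤ A := by
        rw [← hA]
        exact le_max_left _ _
      have h2 := (Qsc_anti hW (one_pos.trans_le (hgf e)) hAg ρ 0).trans h2'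
      have h3 := Esc_le hW (hSp ρ hρ).1 (left_mem_Icc.2 hS0.le)
      have h4 := mul_le_mul_of_nonneg_left h2 hA0.le
      have h5 := mul_le_mul_of_nonneg_left h3 hCT
      linarith
    have h2 : ∑ ρ ∈ Sc N W, Qr W E A ρ 0 ≤
        (Sc N W).card * ((A * e + 200 * CT (Fin 3) * C1) * (N : ℝ) ^ 2) := by
      refine (Finset.sum_le_sum h1).trans (le_of_eq ?_)
      rw [Finset.sum_const, nsmul_eq_mul]
    have h3 : 0 ≤ c * ∑ ρ ∈ Sc N W, Qr W E A ρ W.S :=
      mul_nonneg hc0 (Finset.sum_nonneg fun ρ _ => Qr_nonneg hW hA0 ρ _)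
    have hX0 : 0 ≤ 200 * CT (Fin 3) * C1 := by positivity
    have h4 : c * ((A * e + 200 * CT (Fin 3) * C1) * (N : ℝ) ^ 2) ≤
        4 / 3 * KB * (1 + 200 * CT (Fin 3) * C1) := by
      rw [hc, div_mul_eq_mul_div, div_le_iff₀ (by positivity)]
      have h5 : (A * e + 200 * CT (Fin 3) * C1) ≤ (1 + 200 * CT (Fin 3) * C1) * (e * A) := by
        nlinarith
      calc 4 / 3 * KB * ((A * e + 200 * CT (Fin 3) * C1) * (N : ℝ) ^ 2)
          ≤ 4 / 3 * KB * ((1 + 200 * CT (Fin 3) * C1) * (e * A) * (N : ℝ) ^ 2) :=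
            mul_le_mul_of_nonneg_left (mul_le_mul_of_nonneg_right h5 hN0.le) (by positivity)
        _ = _ := by ring
    have h5 : c * ∑ ρ ∈ Sc N W, Qr W E A ρ 0 ≤
        4 / 3 * KB * KS * (1 + 200 * CT (Fin 3) * C1) * W.S := by
      calc c * ∑ ρ ∈ Sc N W, Qr W E A ρ 0
          ≤ c * ((Sc N W).card * ((A * e + 200 * CT (Fin 3) * C1) * (N : ℝ) ^ 2)) :=
            mul_le_mul_of_nonneg_left h2 hc0
        _ = (Sc N W).card * (c * ((A * e + 200 * CT (Fin 3) * C1) * (N : ℝ) ^ 2)) := by ring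
        _ ≤ (KS * W.S) * (4 / 3 * KB * (1 + 200 * CT (Fin 3) * C1)) :=
            mul_le_mul hSk h4 (by positivity) (by positivity)
        _ = _ := by ring
    show c * ∑ ρ ∈ Sc N W, Qr W E A ρ 0 - c * ∑ ρ ∈ Sc N W, Qr W E A ρ W.S ≤ _
    linarith
  · intro τ _
    obtain ⟨d, hd, -⟩ := hder τ
    exact hd.continuousAt.continuousWithinAt
  · intro τ hτ
    have hτ' : τ ∈ Icc 0 W.S := ⟨hτ.1.le, hτ.2.le⟩
    obtain ⟨d, hd, hd'⟩ := hder τ
    refine ⟨d, hd, (hd' hτ').trans ?_⟩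
    rw [hA]
    have h1 := hBn A hA1 N W hW1 τ hτ'
    have h2 : c * ∑ ρ ∈ Sc N W, (-(3 / 4 * (A * Csc W E A ρ τ)) +
        A * CN (Fin 3) E L R c2 1 * (200 * (C1 + 1) * (η / W.S ^ 8) * (N : ℝ) ^ 2)) =
        -(KB * ((∑ ρ ∈ Sc N W, Csc W E A ρ τ) / (N : ℝ) ^ 2) / e) +
        (Sc N W).card * (4 / 3 * KB * CN (Fin 3) E L R c2 1 * (200 * (C1 + 1)) *
          (η / W.S ^ 8) / e) := by
      rw [Finset.sum_add_distrib, Finset.sum_const, nsmul_eq_mul, Finset.sum_neg_distrib,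
        ← Finset.mul_sum, ← Finset.mul_sum, hc]
      field_simp
    rw [h2]
    have h3 : -(KB * ((∑ ρ ∈ Sc N W, Csc W E A ρ τ) / (N : ℝ) ^ 2) / e) ≤
        -(Bn A N W τ / e) := by
      rw [neg_le_neg_iff]
      exact div_le_div_of_nonneg_right h1 he.le
    have h4 : (Sc N W).card * (4 / 3 * KB * CN (Fin 3) E L R c2 1 * (200 * (C1 + 1)) *
        (η / W.S ^ 8) / e) ≤ 1 := by
      have h5 : η / W.S ^ 8 ≤ η / W.S := by
        refine div_le_div_of_nonneg_left hη.le hS0 ?_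
        calc W.S = W.S ^ 1 := (pow_one _).symm
          _ ≤ W.S ^ 8 := pow_le_pow_right₀ hS1 (by norm_num)
      have h6 : 0 ≤ 4 / 3 * KB * CN (Fin 3) E L R c2 1 * (200 * (C1 + 1)) := by positivity
      calc (Sc N W).card * (4 / 3 * KB * CN (Fin 3) E L R c2 1 * (200 * (C1 + 1)) *
            (η / W.S ^ 8) / e)
          ≤ (KS * W.S) * (4 / 3 * KB * CN (Fin 3) E L R c2 1 * (200 * (C1 + 1)) *
            (η / W.S) / e) := by
            refine mul_le_mul hSk ?_ (by positivity) (by positivity)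
            exact div_le_div_of_nonneg_right (mul_le_mul_of_nonneg_left h5 h6) he.le
        _ = Y * η / e := by
            rw [← hY]
            field_simp
        _ ≤ 1 := by
            rw [div_le_one he]
            rw [le_div_iff₀ (by positivity)] at hηY
            nlinarith
    have h7 : 0 ≤ 4 / 3 * KB * KS * (1 + 200 * CT (Fin 3) * C1) := by positivity
    linarith

/-- the dyadic scales -/
noncomputable def ScX (C1 : ℝ) (N : ℕ) [NeZero N] (W : StW N) : Finset ℕ :=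
  (Finset.range (2 * nJ C1 W.S + 5)).image fun s => 2 ^ s

theorem sum_ScX (C1 : ℝ) (N : ℕ) [NeZero N] (W : StW N) (F : ℕ → ℝ) :
    ∑ ρ ∈ ScX C1 N W, F ρ = ∑ s ∈ Finset.range (2 * nJ C1 W.S + 5), F (2 ^ s) :=
  Finset.sum_image fun a _ b _ h => Nat.pow_right_injective le_rfl h

theorem nJ_le {C1 S : ℝ} (hC1 : 0 ≤ C1) (hS : 0 ≤ S) : (nJ C1 S : ℝ) ≤ C1 * S + 2 := by
  unfold nJ
  push_cast
  have := (Nat.ceil_lt_add_one (mul_nonneg hC1 hS)).le
  linarith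

/-- **`QPart` for the concrete functional** -/
theorem qPart {lam E C1 : ℝ} (hlam : 0 < lam) (hC1 : 0 < C1) {gf : ℝ → ℝ}
    (hgf : ∀ e, 1 ≤ gf e) : QPart Q0 lam E C1 gf (BnX E C1) := by
  have ht : 0 < lam * tau0 / 2 := by
    have := tau0_pos
    positivity
  have ht' : lam * tau0 / 2 < lam := by
    unfold tau0
    linarith
  refine qPart_of (L := lam) (R := P365T1.Smooth755.K1 lam (lam * tau0 / 2))
    (c2 := P365T1.Smooth755.cC2 lam (lam * tau0 / 2)) (Sc := ScX C1) (KB := 1)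
    (KS := 2 * C1 + 9) (η₁ := 1 / (2 * C1 + 14)) hC1.le hgf hlam.le
    (P365T1.Smooth755.K1_nonneg ht ht') (P365T1.Smooth755.smL_nuS ht ht')
    (P365T1.Smooth755.c2_nuS ht ht') zero_le_one (by positivity) (by positivity) ?_ ?_
  · intro N _ W hW1 hW
    have hS1 : 1 ≤ W.S := by
      have := hW1.S_ge
      rwa [div_one] at this
    have hJ := nJ_le hC1.le (by linarith : 0 ≤ W.S)
    refine ⟨fun ρ hρ => ?_, ?_⟩
    · obtain ⟨s, hs, rfl⟩ := Finset.mem_image.1 hρ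
      refine ⟨by positivity, ?_⟩
      have hs' : s ≤ 2 * nJ C1 W.S + 4 := by
        have := Finset.mem_range.1 hs
        omega
      have h1 : ((12 * 2 ^ s : ℕ) : ℝ) < N := by
        refine lt_of_lt_of_le ?_ hW.N_ge
        push_cast
        have h2 : (12 : ℝ) * 2 ^ s ≤ 2 ^ (s + 4) := by
          rw [pow_add]
          have : (0 : ℝ) < 2 ^ s := by positivity
          nlinarith
        have h3 : (2 : ℝ) ^ (s + 4) < Real.exp (s + 4 : ℝ) := by
          have h4 : (2 : ℝ) < Real.exp 1 := by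
            have := Real.exp_one_gt_d9
            linarith
          have h5 : Real.exp ((s : ℝ) + 4) = Real.exp 1 ^ (s + 4) := by
            rw [← Real.exp_nat_mul]
            congr 1
            push_cast
            ring
          rw [h5]
          exact pow_lt_pow_left₀ h4 (by norm_num) (by omega)
        refine h2.trans_lt (h3.trans_le (Real.exp_le_exp.2 ?_))
        have h6 : (s : ℝ) ≤ 2 * nJ C1 W.S + 4 := by exact_mod_cast hs'
        rw [div_div_eq_mul_div, div_one]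
        nlinarith
      exact_mod_cast h1
    · have h1 : ((ScX C1 N W).card : ℝ) ≤ 2 * nJ C1 W.S + 5 := by
        have := (Finset.card_image_le (s := Finset.range (2 * nJ C1 W.S + 5))
          (f := fun s : ℕ => 2 ^ s))
        rw [Finset.card_range] at this
        exact_mod_cast this
      nlinarith
  · intro g hg N _ W hW τ hτ
    rw [one_mul, sum_ScX C1 N W fun ρ => Csc W E g ρ τ]
    exact le_rfl

end P365T2.H937
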